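import Vale.Agent.P141.H530.V.Last

/-!
# P141: truncations of the trilinear Hilbert transform at all Hölder tuples with `r > 1 / 2`
-/

open MeasureTheory Filter Topology
open scoped ENNReal SchwartzMap
open Vale.Agent.P141

/-- **Truncations at all Hölder tuples.** For one exponent `m`: (1) at every Hölder tuple with
`2 < p_i ≤ ∞` and `r < 2` (so `2 / 3 < r < 2`) the truncations of the trilinear Hilbert transform
are bounded (in the quasi-norm of `L^r` if `r < 1`) with the constant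
`C (1 + log (2 + log (R / ε))) ^ m`; (2) at every Hölder tuple with `r > 1 / 2`, `p_i ≤ ∞`, they are
bounded with the constant `C (1 + log (R / ε)) ^ s` for every
`s > max 0 (2 / p_i - 1) (1 - 2 / r) (2 / r - 3)`. -/
theorem Vale.Agent.Results.P141.TruncationsAllTuples.result : ∃ m : ℕ,
    (∀ p₁ p₂ p₃ r : ℝ≥0∞, IsHolderTuple p₁ p₂ p₃ r → 2 < p₁ → 2 < p₂ → 2 < p₃ → r < 2 →
      ∃ C : ℝ, ∀ f₁ f₂ f₃ : 𝓢(ℝ, ℂ), ∀ ε R : ℝ, 0 < ε → ε < R →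
        eLpNorm (truncTHT f₁ f₂ f₃ ε R) r volume ≤
          ENNReal.ofReal (C * (1 + Real.log (2 + Real.log (R / ε))) ^ m) *
            eLpNorm f₁ p₁ volume * eLpNorm f₂ p₂ volume * eLpNorm f₃ p₃ volume) ∧
    (∀ p₁ p₂ p₃ r : ℝ≥0∞, IsHolderTuple p₁ p₂ p₃ r → 1 / 2 < r →
      ∀ s : ℝ, 0 < s → 2 * (p₁⁻¹).toReal - 1 < s → 2 * (p₂⁻¹).toReal - 1 < s →
      2 * (p₃⁻¹).toReal - 1 < s → 1 - 2 * (r⁻¹).toReal < s → 2 * (r⁻¹).toReal - 3 < s →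
      ∃ C : ℝ, ∀ f₁ f₂ f₃ : 𝓢(ℝ, ℂ), ∀ ε R : ℝ, 0 < ε → ε < R →
        eLpNorm (truncTHT f₁ f₂ f₃ ε R) r volume ≤
          ENNReal.ofReal (C * (1 + Real.log (R / ε)) ^ s) *
            eLpNorm f₁ p₁ volume * eLpNorm f₂ p₂ volume * eLpNorm f₃ p₃ volume) := by
  obtain ⟨m, h⟩ := Vale.Agent.P141.H530.V.double_log_all
  refine ⟨m, h, ?_⟩
  intro p₁ p₂ p₃ r hp hr s hs g1 g2 g3 g4 g5
  exact Vale.Agent.P141.H530.V.log_power_all hp hr hs g1 g2 g3 g4 g5
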